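import Vale.Agent.P352X.EB.CH0
import Vale.Agent.P352Z.P352X.Main

open Vale.Agent.P352G

/-!
# P352NA: from the rows to the theorem
-/

set_option linter.all false

open Filter Topology Set

namespace Vale.Agent.P352X.EB.NA

open Vale.Agent.P352 Vale.Agent.P352.GF Vale.Agent.P352.BW Vale.Agent.P352.H246
open Vale.Agent.P352.H496 Vale.Agent.P352.H755 Vale.Agent.P352.H15
open UniformSpace (Completion)

noncomputable section

universe u

variable {D : Type u} [NormedAddCommGroup D] [InnerProductSpace ℂ D] [GrD D]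

theorem dd_thmZ (c : CtxZ D) [Fact c.tp] : DDZ c :=
  have t := t3_thmZ c
  have bb := bb_ofZ c t
  have far := far_rowZ c t
  dd_rowZ c t (d1_rowZ c t (sch_rowZ c t) (yz_rowZ c t (res_rowZ c t) far
    (ix_rowZ c t far) (cont_rowZ c t far (conm_rowZ c t) (conk_row0Z c t (bp0_rowZ c t bb)))
      (ib_rowZ c t) (sw_rowZ c t)))

theorem ee_thmZ (c : CtxZ D) [Fact c.tp] : EEZ c :=
  ee_rowZ c (t3_thmZ c) (bb_ofZ c (t3_thmZ c)) (dd_thmZ c)

theorem g1_thmZ (c : CtxZ D) [Fact c.tp] : G1Z c :=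
  g1_rowZ c (t3_thmZ c) (dd_thmZ c) (ee_thmZ c)

/-- the finite action of `exp (i t K)` on the potential -/
theorem flow_ofZ {c : CtxZ D} (g : G1Z c) (f : Fn) (s : ℝ) (hf : In {z | be z < 0} f)
    (hs : 0 ≤ s) : c.SK s (c.l f) = c.l (pb 2 s f) := by
  obtain ⟨U, -, u1, u2, u3⟩ := ch0_row.fam f hf
  obtain ⟨L, hL⟩ : ∃ L : Sch →L[ℂ] Completion D, ∀ g, L g = c.l (ev g) := by
    have k : ∀ (f g : Sch) (a : ℂ), c.l (ev (f + a • g)) = c.l (ev f) + a • c.l (ev g) :=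
      fun f g a => c.hl.lin (ev f) (ev g) a ⟨f, rfl⟩ ⟨g, rfl⟩
    have k0 : c.l (ev 0) = 0 := by simpa using k 0 0 1
    exact ⟨⟨⟨⟨fun g => c.l (ev g), fun f g => by simpa using k f g 1⟩,
      fun a f => by simpa [k0] using k 0 f a⟩, c.hl.cont⟩, fun _ => rfl⟩
  have d : ∀ r ∈ Ici (0 : ℝ), HasDerivAt (fun r => c.SK (-r) (L (sch (pb 2 r f)))) 0 r :=
    fun r hr => by
    obtain ⟨a, b⟩ := u3 r (u1 hr)
    have h := u2.hasDerivAt L (u1 hr)
    rw [funext b, hL, Ap.ev_sch (Ap.in_Kc 2 a).1] at h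
    refine (c.ugK.hasDerivAt_comp (hasDerivAt_neg r) h
      ((g.pot _ a).cast (by rw [hL, Ap.ev_sch a.1]) rfl)).congr_deriv ?_
    rw [map_smul, I_neg_I, neg_one_smul, neg_add_cancel]
  have e := constant_of_has_deriv_right_zero
    (fun r hr => (d r hr.1).continuousAt.continuousWithinAt)
    (fun r hr => (d r hr.1).hasDerivWithinAt) s (right_mem_Icc.2 hs)
  rw [hL, hL, Ap.ev_sch (u3 s (u1 hs)).1.1, neg_zero, Ch0.pb_zero, Ap.ev_sch hf.1, c.ugK.zero] at e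
  rw [← e, ← c.ugK.add, add_neg_cancel, c.ugK.zero]

theorem flow_thmZ (c : CtxZ D) [Fact c.tp] (f : Fn) (s : ℝ) (hf : In {z | be z < 0} f)
    (hs : 0 ≤ s) : c.SK s (c.l f) = c.l (pb 2 s f) := flow_ofZ (g1_thmZ c) f s hf hs

end

end Vale.Agent.P352X.EB.NA
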