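import Vale.Agent.P352NA.Defs
import Vale.Agent.P352Z.P352X.EB.Spec

open Vale.Agent.P352G

/-!
# P352NA: vocabulary and rows of the net-only route
-/

set_option linter.all false

open MeasureTheory Filter Topology
open scoped SchwartzMap ComplexConjugate ContDiff

namespace Vale.Agent.P352X.EB.NA

open Vale.Agent.P352 Vale.Agent.P352.GF Vale.Agent.P352.BW Vale.Agent.P352.H246
open Vale.Agent.P352.H496 Vale.Agent.P352.H755 Vale.Agent.P352.H15
open Vale.Agent.P352.SubConf (IsAdj)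
open Vale.Agent.P352NA
open UniformSpace (Completion)
open Complex (I)
open Bornology (IsBounded)

noncomputable section

variable {D : Type*} [NormedAddCommGroup D] [InnerProductSpace ℂ D] [GrD D] (c : CtxZ D)

/-- true letters: sums of fields smeared in `K`, applied to the vacuum, with their adjoints -/
inductive TrZ (K : Set V) : Completion D → Completion D → Prop
  | zero : TrZ K 0 0
  | fld (B B' : Fld D) (f : Fn) : c.Q.fld B → c.Q.fld B' → IsAdj B B' → In K f →
      TrZ K (B f c.Q.vac : D) (B' (bar f) c.Q.vac : D)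
  | add (ξ ξ' η η' : Completion D) : TrZ K ξ ξ' → TrZ K η η' → TrZ K (ξ + η) (ξ' + η')
  | smul (z : ℂ) (ξ ξ' : Completion D) : TrZ K ξ ξ' → TrZ K (z • ξ) (conj z • ξ')

/-- row PF: polynomial families through the true letters -/
def PFZ : Prop := ∀ B B', c.Q.fld B → c.Q.fld B' → IsAdj B B' → ∃ N : ℕ, ∀ f,
  In {z | be z < 0} f → ∃ η η' : ℝ → Completion D, η 0 = (B f c.Q.vac : D) ∧
    η' 0 = (B' (bar f) c.Q.vac : D) ∧
    (∀ t, 0 ≤ t → Reg (-t) f → TrZ c (cph t '' tsupport f) (η t) (η' t)) ∧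
    Pol N {t | 0 ≤ t ∧ Reg (-t) f} (fun t => c.SK t (η t)) ∧
    Pol N {t | 0 ≤ t ∧ Reg (-t) f} fun t => c.SK t (η' t)

/-- row COV: the similitudes map a field into the span of a finite family of fields -/
def COVZ : Prop := ∀ B B', c.Q.fld B → c.Q.fld B' → IsAdj B B' →
  ∃ (e n : ℕ) (C C' : Fin n → Fld D) (κ : Sg → Fin n → ℂ),
    (∀ i, c.Q.fld (C i) ∧ c.Q.fld (C' i) ∧ IsAdj (C i) (C' i)) ∧
    (∀ g : Sg, 1 ≤ g.s → g.L = GF.one → ∀ i, ‖κ g i‖ ≤ g.s ^ e) ∧
    ∀ (g : Sg) f v, IsTest f →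
      B f (c.Q.U g.s g.L g.a v) = ∑ i, κ g i • c.Q.U g.s g.L g.a (C i (g.pull f) v) ∧
      B' f (c.Q.U g.s g.L g.a v) = ∑ i, conj (κ g i) • c.Q.U g.s g.L g.a (C' i (g.pull f) v)

/-- the tools of the net-only route -/
structure N0Z : Prop extends E0Z c where
  ee : EEZ c
  mf : MfAll c.Q
  fsl : FSL c.Q

end

end Vale.Agent.P352X.EB.NA
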